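import Vale.Agent.P200.U.PowSpan

/-!
**The base locus.**  Planes `P_g = <L g 0, L g 1>` of linear forms such that for every `e ≤ E` an
evaluation functional on the binary forms of degree `e` of the planes, which kills the forms in
`(f)`, comes from a common zero of the `f_i` with `d_i ≤ e` (up to `e`-th roots of unity on every
plane).
-/

namespace Vale.Agent.P200.U

open MvPolynomial Module

variable {K : Type*} [Field K] {n : ℕ}

/-- the planes of the leaves: linear forms such that all pairs of a family, whose powers span, occur -/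
structure Planes (E R : ℕ) (L : Fin R → Fin 2 → MvPolynomial (Fin n) K) : Prop where
  lin : ∀ g j, (L g j).IsHomogeneous 1
  ex : ∃ (s : ℕ) (l : Fin s → MvPolynomial (Fin n) K), (∀ i, (l i).IsHomogeneous 1) ∧
    (∀ e, 1 ≤ e → e ≤ E →
      homogeneousSubmodule (Fin n) K e ≤ Submodule.span K (Set.range fun i => l i ^ e)) ∧
    ∀ i i', ∃ g, L g 0 = l i ∧ L g 1 = l i'

theorem exists_planes [Infinite K] (E : ℕ) (hE : (E.factorial : K) ≠ 0) :
    ∃ (R : ℕ) (L : Fin R → Fin 2 → MvPolynomial (Fin n) K), Planes E R L := by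
  classical
  have h1 : ∀ e : Fin (E + 1), ∃ (s : ℕ) (l : Fin s → MvPolynomial (Fin n) K),
      (∀ i, (l i).IsHomogeneous 1) ∧ (1 ≤ (e : ℕ) →
        homogeneousSubmodule (Fin n) K e ≤ Submodule.span K (Set.range fun i => l i ^ (e : ℕ))) := by
    intro e
    by_cases he : 1 ≤ (e : ℕ)
    · have hK : ((e : ℕ).factorial : K) ≠ 0 := by
        intro h
        apply hE
        obtain ⟨c, hc⟩ := Nat.factorial_dvd_factorial (Nat.lt_succ_iff.1 e.2)
        rw [hc, Nat.cast_mul, h, zero_mul]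
      obtain ⟨s, l, hl, hs⟩ := exists_powers_span (K := K) (n := n) he hK
      exact ⟨s, l, hl, fun _ => hs.le⟩
    · exact ⟨0, fun i => i.elim0, fun i => i.elim0, fun h => absurd h he⟩
  choose s l hl hspan using h1
  let ι := Σ e : Fin (E + 1), Fin (s e)
  let eq1 : ι ≃ Fin (Fintype.card ι) := Fintype.equivFin ι
  let S := Fintype.card ι
  let l' : Fin S → MvPolynomial (Fin n) K := fun i => l (eq1.symm i).1 (eq1.symm i).2
  let eq2 : Fin S × Fin S ≃ Fin (S * S) := finProdFinEquiv
  refine ⟨S * S, fun g => ![l' (eq2.symm g).1, l' (eq2.symm g).2], ?_, S, l', fun i => hl _ _, ?_,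
    ?_⟩
  · intro g j
    fin_cases j
    · exact hl _ _
    · exact hl _ _
  · intro e he1 heE
    refine (hspan ⟨e, Nat.lt_succ_of_le heE⟩ he1).trans (Submodule.span_mono ?_)
    rintro _ ⟨i, rfl⟩
    refine ⟨eq1 ⟨⟨e, Nat.lt_succ_of_le heE⟩, i⟩, ?_⟩
    have h := eq1.symm_apply_apply ⟨⟨e, Nat.lt_succ_of_le heE⟩, i⟩
    have h2 : l' (eq1 ⟨⟨e, Nat.lt_succ_of_le heE⟩, i⟩) = l ⟨e, Nat.lt_succ_of_le heE⟩ i := by
      change l (eq1.symm (eq1 ⟨⟨e, Nat.lt_succ_of_le heE⟩, i⟩)).1
        (eq1.symm (eq1 ⟨⟨e, Nat.lt_succ_of_le heE⟩, i⟩)).2 = _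
      rw [h]
    change l' (eq1 ⟨⟨e, Nat.lt_succ_of_le heE⟩, i⟩) ^ e = _
    rw [h2]
  · intro i i'
    refine ⟨eq2 (i, i'), ?_, ?_⟩
    · simp
    · simp

/-- the products of degree `e` on the planes -/
noncomputable def asm (e : ℕ) {R : ℕ} (L : Fin R → Fin 2 → MvPolynomial (Fin n) K) :
    (Fin R → ℕ → K) →ₗ[K] MvPolynomial (Fin n) K :=
  w14_lin e fun g m => L g 0 ^ (e - m) * L g 1 ^ m

theorem asm_apply (e : ℕ) {R : ℕ} (L : Fin R → Fin 2 → MvPolynomial (Fin n) K)
    (u : Fin R → ℕ → K) : asm e L u =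
      ∑ g, ∑ m ∈ Finset.range (e + 1), C (u g m) * (L g 0 ^ (e - m) * L g 1 ^ m) := rfl

theorem asm_single (e : ℕ) {R : ℕ} (L : Fin R → Fin 2 → MvPolynomial (Fin n) K) (g : Fin R)
    {m : ℕ} (hm : m ≤ e) : asm e L (Pi.single g (Pi.single m 1)) = L g 0 ^ (e - m) * L g 1 ^ m :=
  w14_lin_single e (fun g m => L g 0 ^ (e - m) * L g 1 ^ m) g hm

/-- every form of degree `e` is a sum of binary forms of the planes -/
theorem Planes.lift {E R : ℕ} {L : Fin R → Fin 2 → MvPolynomial (Fin n) K} (hL : Planes E R L)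
    {e : ℕ} (he : 1 ≤ e) (heE : e ≤ E) {p : MvPolynomial (Fin n) K} (hp : p.IsHomogeneous e) :
    ∃ u : Fin R → ℕ → K, asm e L u = p := by
  obtain ⟨s, l, hl, hspan, hex⟩ := hL.ex
  have h1 : p ∈ LinearMap.range (asm e L) := by
    have h2 : p ∈ homogeneousSubmodule (Fin n) K e := hp
    refine (hspan e he heE).trans (Submodule.span_le.2 ?_) h2
    rintro _ ⟨i, rfl⟩
    obtain ⟨g, hg0, -⟩ := hex i i
    refine ⟨Pi.single g (Pi.single 0 1), ?_⟩
    rw [asm_single e L g (Nat.zero_le _), hg0, Nat.sub_zero, pow_zero, mul_one]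
  exact h1

variable {Ω : Type*} [Field Ω] [Algebra K Ω]

/-- evaluation of a linear form -/
theorem aeval_lin (ψ : MvPolynomial (Fin n) K →ₗ[K] Ω) {g : MvPolynomial (Fin n) K}
    (hg : g.IsHomogeneous 1) : aeval (fun k => ψ (X k)) g = ψ g := by
  have h1 : g ∈ homogeneousSubmodule (Fin n) K 1 := hg
  rw [homogeneousSubmodule_one_eq_span_X] at h1
  refine Submodule.span_induction (p := fun g _ => aeval (fun k => ψ (X k)) g = ψ g)
    ?_ ?_ ?_ ?_ h1
  · rintro _ ⟨i, rfl⟩
    rw [aeval_X]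
  · rw [map_zero, map_zero]
  · intro x y _ _ hx hy
    rw [map_add, map_add, hx, hy]
  · intro c x _ hx
    rw [map_smul, map_smul, hx]

/-- homogeneity -/
theorem aeval_scale {e : ℕ} {g : MvPolynomial (Fin n) K} (hg : g.IsHomogeneous e) (c : Ω)
    (v : Fin n → Ω) : aeval (fun k => c * v k) g = c ^ e * aeval v g := by
  rw [aeval_def, aeval_def, eval₂_eq', eval₂_eq', Finset.mul_sum]
  refine Finset.sum_congr rfl fun m hm => ?_
  have h1 : ∏ i, (c * v i) ^ m i = c ^ e * ∏ i, v i ^ m i := by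
    simp only [mul_pow]
    rw [Finset.prod_mul_distrib, Finset.prod_pow_eq_pow_sum]
    congr 2
    have h2 := hg (mem_support_iff.1 hm)
    rw [← h2, Finsupp.weight_apply, Finsupp.sum_fintype]
    · simp
    · simp
  rw [h1]
  ring

theorem aeval_zero_of_pos {e : ℕ} (he : 1 ≤ e) {g : MvPolynomial (Fin n) K}
    (hg : g.IsHomogeneous e) : aeval (0 : Fin n → Ω) g = 0 := by
  have h1 := aeval_scale hg (0 : Ω) (0 : Fin n → Ω)
  rw [zero_pow (by omega), zero_mul] at h1
  have h2 : (fun k => (0 : Ω) * (0 : Fin n → Ω) k) = 0 := by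
    funext k
    rw [zero_mul, Pi.zero_apply]
  rwa [h2] at h1

/-- two points of a plane with the same monomials of degree `e` differ by a root of unity -/
theorem exists_root {e : ℕ} (he : 1 ≤ e) (x y : Fin 2 → Ω)
    (h : ∀ m ≤ e, x 0 ^ (e - m) * x 1 ^ m = y 0 ^ (e - m) * y 1 ^ m) :
    ∃ ε : Ω, ε ^ e = 1 ∧ ∀ j, x j = ε * y j := by
  have he0 : e ≠ 0 := by omega
  have e0 := h 0 (by omega)
  have e1 := h 1 he
  have ee := h e le_rfl
  rw [Nat.sub_zero, pow_zero, mul_one, pow_zero, mul_one] at e0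
  rw [Nat.sub_self, pow_zero, one_mul, pow_zero, one_mul] at ee
  rw [pow_one, pow_one] at e1
  by_cases hy0 : y 0 = 0
  · have hx0 : x 0 = 0 := by
      rw [hy0, zero_pow he0] at e0
      exact eq_zero_of_pow_eq_zero e0
    by_cases hy1 : y 1 = 0
    · have hx1 : x 1 = 0 := by
        rw [hy1, zero_pow he0] at ee
        exact eq_zero_of_pow_eq_zero ee
      refine ⟨1, one_pow _, fun j => ?_⟩
      fin_cases j
      · simp [hx0, hy0]
      · simp [hx1, hy1]
    · refine ⟨x 1 / y 1, ?_, fun j => ?_⟩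
      · rw [div_pow, ee, div_self (pow_ne_zero _ hy1)]
      · fin_cases j
        · simp [hx0, hy0]
        · simp only [Fin.mk_one]
          field_simp
  · have hx0 : x 0 ≠ 0 := by
      intro h0
      rw [h0, zero_pow he0] at e0
      exact hy0 (eq_zero_of_pow_eq_zero e0.symm)
    refine ⟨x 0 / y 0, ?_, fun j => ?_⟩
    · rw [div_pow, e0, div_self (pow_ne_zero _ hy0)]
    · fin_cases j
      · simp only [Fin.zero_eta]
        field_simp
      · simp only [Fin.mk_one]
        have h1 : x 0 ^ (e - 1) ≠ 0 := pow_ne_zero _ hx0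
        apply mul_left_cancel₀ h1
        rw [e1]
        have h2 : x 0 ^ (e - 1) * x 0 = x 0 ^ e := by
          rw [← pow_succ]; congr 1; omega
        have h3 : y 0 ^ (e - 1) * y 0 = y 0 ^ e := by
          rw [← pow_succ]; congr 1; omega
        field_simp
        linear_combination (y 1) * h3 - (y 1) * h2 - (y 1) * e0

/-- a functional with the Veronese property on all pairs is an evaluation -/
theorem eval_of_pairs {e s : ℕ} (he : 1 ≤ e) (l : Fin s → MvPolynomial (Fin n) K)
    (hl : ∀ i, (l i).IsHomogeneous 1)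
    (hspan : homogeneousSubmodule (Fin n) K e ≤ Submodule.span K (Set.range fun i => l i ^ e))
    (φ : MvPolynomial (Fin n) K →ₗ[K] Ω) (x : Fin s → Fin s → Fin 2 → Ω)
    (hx : ∀ i i', ∀ m ≤ e, φ (l i ^ (e - m) * l i' ^ m) = x i i' 0 ^ (e - m) * x i i' 1 ^ m) :
    ∃ v : Fin n → Ω, ∀ g : MvPolynomial (Fin n) K, g.IsHomogeneous e → φ g = aeval v g := by
  by_cases hall0 : ∀ i, φ (l i ^ e) = 0
  · refine ⟨0, fun g hg => ?_⟩
    have h1 : g ∈ homogeneousSubmodule (Fin n) K e := hg
    have h2 : φ g = 0 := by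
      refine Submodule.span_induction (p := fun g _ => φ g = 0) ?_ ?_ ?_ ?_ (hspan h1)
      · rintro _ ⟨i', rfl⟩
        exact hall0 i'
      · rw [map_zero]
      · intro y z _ _ hy hz
        rw [map_add, hy, hz, add_zero]
      · intro c y _ hy
        rw [map_smul, hy, smul_zero]
    rw [h2]
    exact (aeval_zero_of_pos he hg).symm
  push Not at hall0
  obtain ⟨i, ha⟩ := hall0
  set a := φ (l i ^ e) with hadef
  -- the linear functional `v`
  let ψ : MvPolynomial (Fin n) K →ₗ[K] Ω :=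
    (LinearMap.mulLeft K (a⁻¹)).comp (φ.comp (LinearMap.mulLeft K (l i ^ (e - 1))))
  have hψ : ∀ g, ψ g = a⁻¹ * φ (l i ^ (e - 1) * g) := fun g => rfl
  set v : Fin n → Ω := fun k => ψ (X k) with hv
  have hev : ∀ g : MvPolynomial (Fin n) K, g.IsHomogeneous 1 →
      a * aeval v g = φ (l i ^ (e - 1) * g) := by
    intro g hg
    rw [hv, aeval_lin ψ hg, hψ, ← mul_assoc, mul_inv_cancel₀ ha, one_mul]
  have hpow : ∀ i' : Fin s, ∀ m ≤ e, φ (l i ^ (e - m) * l i' ^ m) = a * aeval v (l i') ^ m := by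
    intro i' m
    induction m with
    | zero =>
      intro _
      rw [Nat.sub_zero, pow_zero, mul_one, pow_zero, mul_one]
    | succ m ih =>
      intro hmb
      have h1 := ih (by omega)
      have h2 : a * φ (l i ^ (e - (m + 1)) * l i' ^ (m + 1)) =
          φ (l i ^ (e - 1) * l i') * φ (l i ^ (e - m) * l i' ^ m) := by
        have e0 := hx i i' 0 (by omega)
        have e1 := hx i i' 1 he
        have e2 := hx i i' m (by omega)
        have e3 := hx i i' (m + 1) hmb
        rw [Nat.sub_zero, pow_zero, mul_one, pow_zero, mul_one] at e0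
        rw [pow_one, pow_one] at e1
        rw [hadef, e0, e1, e2, e3]
        obtain ⟨c, rfl⟩ : ∃ c, e = m + 1 + c := ⟨e - (m + 1), by omega⟩
        have f1 : m + 1 + c - (m + 1) = c := by omega
        have f2 : m + 1 + c - 1 = m + c := by omega
        have f3 : m + 1 + c - m = c + 1 := by omega
        rw [f1, f2, f3]
        ring
      rw [← hev _ (hl i'), h1] at h2
      have h3 : a * (φ (l i ^ (e - (m + 1)) * l i' ^ (m + 1)) - a * aeval v (l i') ^ (m + 1)) =
          0 := by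
        rw [mul_sub, h2]
        ring
      rcases mul_eq_zero.1 h3 with h4 | h4
      · exact absurd h4 ha
      · exact sub_eq_zero.1 h4
  -- `φ = a · eval v` on forms of degree `e`
  have hall : ∀ g : MvPolynomial (Fin n) K, g.IsHomogeneous e → φ g = a * aeval v g := by
    intro g hg
    have h1 : g ∈ homogeneousSubmodule (Fin n) K e := hg
    refine Submodule.span_induction (p := fun g _ => φ g = a * aeval v g) ?_ ?_ ?_ ?_ (hspan h1)
    · rintro _ ⟨i', rfl⟩
      have h2 := hpow i' e le_rfl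
      simp only
      rw [Nat.sub_self, pow_zero, one_mul] at h2
      rw [h2, map_pow]
    · rw [map_zero, map_zero, mul_zero]
    · intro y z _ _ hy hz
      rw [map_add, map_add, hy, hz, mul_add]
    · intro c y _ hy
      rw [map_smul, map_smul, hy, mul_smul_comm]
  -- rescale
  have hroot : x i i 0 ^ e = a := by
    have := hx i i 0 (by omega)
    rw [Nat.sub_zero, pow_zero, mul_one, pow_zero, mul_one] at this
    exact this.symm
  refine ⟨fun k => x i i 0 * v k, fun g hg => ?_⟩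
  rw [hall g hg, ← hroot, aeval_scale hg]

/-- **the base points.** -/
theorem Planes.base_points {E R : ℕ} {L : Fin R → Fin 2 → MvPolynomial (Fin n) K}
    (hL : Planes E R L) {f : Fin n → MvPolynomial (Fin n) K} {d : Fin n → ℕ}
    (hf : ∀ i, (f i).IsHomogeneous (d i)) (hd : ∀ i, 1 ≤ d i) {e : ℕ} (he : 1 ≤ e) (heE : e ≤ E)
    (x : Fin R → Fin 2 → Ω)
    (hx : ∀ u : Fin R → ℕ → K, asm e L u ∈ Ideal.span (Set.range f) →
      ∑ g, ∑ m ∈ Finset.range (e + 1), u g m • (x g 0 ^ (e - m) * x g 1 ^ m) = 0) :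
    ∃ lam : Fin n → Ω, (∀ i, d i ≤ e → aeval lam (f i) = 0) ∧
      ∀ g, ∃ ε : Ω, ε ^ e = 1 ∧ ∀ j, x g j = ε * aeval lam (L g j) := by
  obtain ⟨s, l, hl, hspan, hex⟩ := hL.ex
  set I := Ideal.span (Set.range f) with hI
  let T : (Fin R → ℕ → K) →ₗ[K] (MvPolynomial (Fin n) K ⧸ I.restrictScalars K) :=
    (I.restrictScalars K).mkQ.comp (asm e L)
  let Xf : (Fin R → ℕ → K) →ₗ[K] Ω :=
    { toFun := fun u => ∑ g, ∑ m ∈ Finset.range (e + 1),
        u g m • (x g 0 ^ (e - m) * x g 1 ^ m)
      map_add' := fun u v => by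
        simp only [Pi.add_apply, add_smul, Finset.sum_add_distrib]
      map_smul' := fun c u => by
        simp only [Pi.smul_apply, smul_eq_mul, mul_smul, Finset.smul_sum, RingHom.id_apply] }
  have hker : LinearMap.ker T ≤ LinearMap.ker Xf := by
    intro u hu
    rw [LinearMap.mem_ker] at hu ⊢
    have h1 : asm e L u ∈ I.restrictScalars K := by
      rw [← Submodule.Quotient.mk_eq_zero]
      exact hu
    exact hx u h1
  obtain ⟨ψ, hψ⟩ := LinearMap.exists_extend
    (((LinearMap.ker T).liftQ Xf hker).comp T.quotKerEquivRange.symm.toLinearMap)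
  have hψT : ∀ u, ψ (T u) = Xf u := by
    intro u
    have h1 := LinearMap.congr_fun hψ ⟨T u, u, rfl⟩
    rw [LinearMap.comp_apply, Submodule.subtype_apply] at h1
    rw [h1, LinearMap.comp_apply]
    have h2 : T.quotKerEquivRange.symm.toLinearMap ⟨T u, u, rfl⟩ =
        Submodule.Quotient.mk (p := LinearMap.ker T) u := by
      rw [LinearEquiv.coe_toLinearMap, LinearEquiv.symm_apply_eq]
      rfl
    rw [h2, Submodule.liftQ_apply]
  let φ : MvPolynomial (Fin n) K →ₗ[K] Ω := ψ.comp (I.restrictScalars K).mkQ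
  have hφasm : ∀ u, φ (asm e L u) = Xf u := hψT
  have hφI : ∀ g ∈ I, φ g = 0 := by
    intro g hg
    have h1 : (I.restrictScalars K).mkQ g = 0 := by
      rw [Submodule.mkQ_apply, Submodule.Quotient.mk_eq_zero]
      exact hg
    change ψ ((I.restrictScalars K).mkQ g) = 0
    rw [h1, map_zero]
  have hφg : ∀ g, ∀ m ≤ e, φ (L g 0 ^ (e - m) * L g 1 ^ m) = x g 0 ^ (e - m) * x g 1 ^ m := by
    intro g m hm
    rw [← asm_single e L g hm, hφasm]
    change ∑ g', ∑ m' ∈ Finset.range (e + 1),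
      (Pi.single g (Pi.single m (1 : K)) : Fin R → ℕ → K) g' m' •
        (x g' 0 ^ (e - m') * x g' 1 ^ m') = _
    rw [Finset.sum_eq_single g, Finset.sum_eq_single m]
    · rw [Pi.single_eq_same, Pi.single_eq_same, one_smul]
    · intro i _ hi
      rw [Pi.single_eq_same, Pi.single_eq_of_ne hi, zero_smul]
    · intro h
      exact absurd (Finset.mem_range.2 (by omega)) h
    · intro i _ hi
      refine Finset.sum_eq_zero fun m' _ => ?_
      rw [Pi.single_eq_of_ne hi, Pi.zero_apply, zero_smul]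
    · intro h
      exact absurd (Finset.mem_univ _) h
  choose γ hγ0 hγ1 using hex
  obtain ⟨lam, hlam⟩ := eval_of_pairs he l hl (hspan e he heE) φ (fun i i' => x (γ i i'))
    (fun i i' m hm => by
      have := hφg (γ i i') m hm
      rwa [hγ0, hγ1] at this)
  refine ⟨lam, fun i hi => ?_, fun g => exists_root he (x g) (fun j => aeval lam (L g j)) ?_⟩
  · by_cases h0 : lam = 0
    · rw [h0]
      exact aeval_zero_of_pos (hd i) (hf i)
    · obtain ⟨k, hk⟩ := Function.ne_iff.1 h0
      have hhom : (f i * X k ^ (e - d i)).IsHomogeneous e := by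
        have h1 := (hf i).mul ((isHomogeneous_X K k).pow (e - d i))
        rw [one_mul] at h1
        have h2 : d i + (e - d i) = e := by omega
        rwa [h2] at h1
      have h1 := hlam _ hhom
      rw [hφI _ (Ideal.mul_mem_right _ _ (Ideal.subset_span ⟨i, rfl⟩)), map_mul, map_pow,
        aeval_X] at h1
      rcases mul_eq_zero.1 h1.symm with h2 | h2
      · exact h2
      · exact absurd h2 (pow_ne_zero _ hk)
  · intro m hm
    rw [← hφg g m hm, hlam, map_mul, map_pow, map_pow]
    have h1 := ((hL.lin g 0).pow (e - m)).mul ((hL.lin g 1).pow m)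
    rw [one_mul, one_mul] at h1
    have h2 : e - m + m = e := by omega
    rwa [h2] at h1

/-- the binary form with coefficients `c` -/
noncomputable def bin (e : ℕ) : (ℕ → K) →ₗ[K] MvPolynomial (Fin 2) K where
  toFun c := ∑ m ∈ Finset.range (e + 1), C (c m) * (X 0 ^ (e - m) * X 1 ^ m)
  map_add' u v := by
    rw [← Finset.sum_add_distrib]
    refine Finset.sum_congr rfl fun m _ => ?_
    rw [Pi.add_apply, map_add, add_mul]
  map_smul' c u := by
    rw [RingHom.id_apply, Finset.smul_sum]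
    refine Finset.sum_congr rfl fun m _ => ?_
    rw [Pi.smul_apply, smul_eq_mul, map_mul, smul_eq_C_mul, mul_assoc]

theorem bin_apply (e : ℕ) (c : ℕ → K) :
    bin e c = ∑ m ∈ Finset.range (e + 1), C (c m) * (X 0 ^ (e - m) * X 1 ^ m) := rfl

theorem bin_hom (e : ℕ) (c : ℕ → K) : (bin e c).IsHomogeneous e := by
  rw [bin_apply]
  refine IsHomogeneous.sum _ _ _ fun m hm => ?_
  have h1 : m ≤ e := Nat.lt_succ_iff.1 (Finset.mem_range.1 hm)
  have h2 := (isHomogeneous_C (Fin 2) (c m)).mul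
    (((isHomogeneous_X K (0 : Fin 2)).pow (e - m)).mul ((isHomogeneous_X K (1 : Fin 2)).pow m))
  have h3 : 0 + (1 * (e - m) + 1 * m) = e := by omega
  rwa [h3] at h2

theorem aeval_bin {A : Type*} [CommRing A] [Algebra K A] (e : ℕ) (c : ℕ → K) (γ : Fin 2 → A) :
    aeval γ (bin e c) = ∑ m ∈ Finset.range (e + 1), c m • (γ 0 ^ (e - m) * γ 1 ^ m) := by
  rw [bin_apply, map_sum]
  refine Finset.sum_congr rfl fun m _ => ?_
  rw [map_mul, map_mul, map_pow, map_pow, aeval_X, aeval_X, aeval_C, Algebra.smul_def]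

theorem asm_eq_bin (e : ℕ) {R : ℕ} (L : Fin R → Fin 2 → MvPolynomial (Fin n) K)
    (u : Fin R → ℕ → K) : asm e L u = ∑ g, aeval (L g) (bin e (u g)) := by
  rw [asm_apply]
  refine Finset.sum_congr rfl fun g _ => ?_
  rw [aeval_bin]
  refine Finset.sum_congr rfl fun m _ => ?_
  rw [smul_eq_C_mul]

/-- `H` spans the systems of binary forms of degree `e` with sum in the ideal `I`. -/
structure Sys (I : Ideal (MvPolynomial (Fin n) K)) (e : ℕ) {R : ℕ}
    (L : Fin R → Fin 2 → MvPolynomial (Fin n) K) {N : ℕ}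
    (H : Fin N → Fin R → MvPolynomial (Fin 2) K) : Prop where
  hom : ∀ l g, (H l g).IsHomogeneous e
  mem : ∀ l, ∑ g, aeval (L g) (H l g) ∈ I
  span : ∀ u : Fin R → ℕ → K, asm e L u ∈ I →
    ∃ y : Fin N → K, ∀ g, bin e (u g) = ∑ l, C (y l) * H l g

theorem exists_sys (I : Ideal (MvPolynomial (Fin n) K)) (e : ℕ) {R : ℕ}
    (L : Fin R → Fin 2 → MvPolynomial (Fin n) K) :
    ∃ (N : ℕ) (H : Fin N → Fin R → MvPolynomial (Fin 2) K), Sys I e L H := by
  classical
  -- the finite dimensional space of coefficients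
  let ext : (Fin R → Fin (e + 1) → K) →ₗ[K] (Fin R → ℕ → K) :=
    { toFun := fun u g m => if h : m < e + 1 then u g ⟨m, h⟩ else 0
      map_add' := fun u v => by
        funext g m
        by_cases h : m < e + 1
        · simp only [Pi.add_apply, dif_pos h]
        · simp only [Pi.add_apply, dif_neg h, add_zero]
      map_smul' := fun c u => by
        funext g m
        by_cases h : m < e + 1
        · simp only [Pi.smul_apply, dif_pos h, RingHom.id_apply]
        · simp only [Pi.smul_apply, dif_neg h, RingHom.id_apply, smul_zero] }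
  let W : Submodule K (Fin R → Fin (e + 1) → K) :=
    (I.restrictScalars K).comap ((asm e L).comp ext)
  let b := Module.finBasis K W
  refine ⟨finrank K W, fun l g => bin e (ext (b l : Fin R → Fin (e + 1) → K) g), fun l g =>
    bin_hom e _, fun l => ?_, fun u hu => ?_⟩
  · have h1 : asm e L (ext (b l : Fin R → Fin (e + 1) → K)) ∈ I := (b l).2
    rwa [asm_eq_bin] at h1
  · let u' : Fin R → Fin (e + 1) → K := fun g m => u g m
    have hbin : ∀ g, bin e (ext u' g) = bin e (u g) := by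
      intro g
      rw [bin_apply, bin_apply]
      refine Finset.sum_congr rfl fun m hm => ?_
      have h1 : m < e + 1 := Finset.mem_range.1 hm
      have h2 : ext u' g m = u g m := by
        simp only [ext, LinearMap.coe_mk, AddHom.coe_mk, u', h1, dif_pos]
      rw [h2]
    have hu' : u' ∈ W := by
      change asm e L (ext u') ∈ I
      rw [asm_eq_bin] at hu ⊢
      have h1 : ∑ g, aeval (L g) (bin e (ext u' g)) = ∑ g, aeval (L g) (bin e (u g)) :=
        Finset.sum_congr rfl fun g _ => by rw [hbin g]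
      rwa [h1]
    refine ⟨fun l => b.repr ⟨u', hu'⟩ l, fun g => ?_⟩
    have h1 := b.sum_repr ⟨u', hu'⟩
    have h2 : ∑ l, b.repr ⟨u', hu'⟩ l • ((b l : W) : Fin R → Fin (e + 1) → K) = u' := by
      have h3 := congrArg W.subtype h1
      rw [map_sum] at h3
      simp only [map_smul, Submodule.subtype_apply] at h3
      exact h3
    rw [← hbin g]
    have h4 : ext u' g = ∑ l, b.repr ⟨u', hu'⟩ l • ext ((b l : W) : Fin R → Fin (e + 1) → K) g := by
      conv_lhs => rw [← h2]
      rw [map_sum, Finset.sum_apply]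
      refine Finset.sum_congr rfl fun l _ => ?_
      rw [map_smul, Pi.smul_apply]
    rw [h4, map_sum]
    refine Finset.sum_congr rfl fun l _ => ?_
    rw [map_smul, smul_eq_C_mul]

/-- **the base points**, for spanning families. -/
theorem Planes.base_points' {E R : ℕ} {L : Fin R → Fin 2 → MvPolynomial (Fin n) K}
    (hL : Planes E R L) {f : Fin n → MvPolynomial (Fin n) K} {d : Fin n → ℕ}
    (hf : ∀ i, (f i).IsHomogeneous (d i)) (hd : ∀ i, 1 ≤ d i) {e : ℕ} (he : 1 ≤ e) (heE : e ≤ E)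
    {N : ℕ} {H : Fin N → Fin R → MvPolynomial (Fin 2) K}
    (hH : Sys (Ideal.span (Set.range f)) e L H) (γ : Fin R → Fin 2 → Ω)
    (hγ : ∀ l, ∑ g, aeval (γ g) (H l g) = 0) :
    ∃ lam : Fin n → Ω, (∀ i, d i ≤ e → aeval lam (f i) = 0) ∧
      ∀ g, ∃ ε : Ω, ε ^ e = 1 ∧ ∀ j, γ g j = ε * aeval lam (L g j) := by
  refine hL.base_points hf hd he heE γ fun u hu => ?_
  obtain ⟨y, hy⟩ := hH.span u hu
  have h1 : ∑ g, ∑ m ∈ Finset.range (e + 1), u g m • (γ g 0 ^ (e - m) * γ g 1 ^ m) =
      ∑ g, aeval (γ g) (bin e (u g)) :=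
    Finset.sum_congr rfl fun g _ => (aeval_bin e (u g) (γ g)).symm
  rw [h1]
  have h2 : ∑ g, aeval (γ g) (bin e (u g)) = ∑ g, ∑ l, y l • aeval (γ g) (H l g) := by
    refine Finset.sum_congr rfl fun g _ => ?_
    rw [hy g, map_sum]
    refine Finset.sum_congr rfl fun l _ => ?_
    rw [map_mul, aeval_C, Algebra.smul_def]
  rw [h2, Finset.sum_comm]
  refine Finset.sum_eq_zero fun l _ => ?_
  rw [← Finset.smul_sum, hγ l, smul_zero]

/-- every form of degree `e` in the ideal is obtained from the system -/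
theorem Planes.exists_of_mem {E R : ℕ} {L : Fin R → Fin 2 → MvPolynomial (Fin n) K}
    (hL : Planes E R L) {I : Ideal (MvPolynomial (Fin n) K)} {e : ℕ} (he : 1 ≤ e) (heE : e ≤ E)
    {N : ℕ} {H : Fin N → Fin R → MvPolynomial (Fin 2) K} (hH : Sys I e L H)
    {p : MvPolynomial (Fin n) K} (hp : p.IsHomogeneous e) (hpI : p ∈ I) :
    ∃ y : Fin N → K, ∑ l, C (y l) * ∑ g, aeval (L g) (H l g) = p := by
  obtain ⟨u, hu⟩ := hL.lift he heE hp
  obtain ⟨y, hy⟩ := hH.span u (by rwa [hu])
  refine ⟨y, ?_⟩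
  rw [← hu, asm_eq_bin]
  have h2 : ∑ g, aeval (L g) (bin e (u g)) = ∑ g, ∑ l, C (y l) * aeval (L g) (H l g) := by
    refine Finset.sum_congr rfl fun g _ => ?_
    rw [hy g, map_sum]
    refine Finset.sum_congr rfl fun l _ => ?_
    rw [map_mul, aeval_C]
    rfl
  rw [h2, Finset.sum_comm]
  refine Finset.sum_congr rfl fun l _ => ?_
  rw [Finset.mul_sum]

end Vale.Agent.P200.U
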