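import Mathlib

/-!
The base locus (Eisenbud-Green-Harris, mixed degrees): a linear functional on the forms of degree `e` whose
restriction to sufficiently many coordinate planes is a point evaluation is itself a point evaluation.

The planes are spanned by a variable `x_a` and a linear form in the later variables with
coefficients in `{0, ..., E}`.
-/

namespace Vale.Agent.P200.U

open MvPolynomial Finset

section interp

variable {Ω : Type*} [Field Ω] {E : ℕ}

theorem cast_ne_of_le (hE : (E.factorial : Ω) ≠ 0) {k : ℕ} (hk : k ∣ E.factorial) :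
    (k : Ω) ≠ 0 := by
  obtain ⟨l, hl⟩ := hk
  intro h
  apply hE
  rw [hl, Nat.cast_mul, h, zero_mul]

theorem cast_inj_of_le (hE : (E.factorial : Ω) ≠ 0) {i j : ℕ} (hi : i ≤ E) (hj : j ≤ E)
    (h : (i : Ω) = (j : Ω)) : i = j := by
  wlog hij : i ≤ j generalizing i j
  · exact (this hj hi h.symm (le_of_not_ge hij)).symm
  by_contra hne
  have hlt : 0 < j - i := by omega
  have h1 : ((j - i : ℕ) : Ω) = 0 := by
    rw [Nat.cast_sub hij, h, sub_self]
  exact cast_ne_of_le hE (Nat.dvd_factorial hlt (by omega)) h1

theorem interp {σ : Type*} [Fintype σ] [DecidableEq σ] (hE : (E.factorial : Ω) ≠ 0) {j : ℕ}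
    (hj : j ≤ E) (s : Finset σ) (w : (σ → ℕ) → Ω)
    (h : ∀ c : σ → ℕ, (∀ i, c i ≤ E) →
      ∑ k ∈ s.piAntidiag j, (Nat.multinomial s k : Ω) * w k * ∏ i ∈ s, (c i : Ω) ^ k i = 0) :
    ∀ k ∈ s.piAntidiag j, w k = 0 := by
  classical
  set P : MvPolynomial σ Ω := ∑ k ∈ s.piAntidiag j,
    monomial (Finsupp.equivFunOnFinite.symm k) ((Nat.multinomial s k : Ω) * w k) with hP
  have hP0 : P = 0 := by
    apply eq_zero_of_eval_zero_at_prod_finset P
      (fun _ => (Finset.range (E + 1)).image (fun i : ℕ => (i : Ω)))
    · intro i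
      rw [Finset.card_image_of_injOn, Finset.card_range]
      · apply Nat.lt_succ_of_le
        refine (degreeOf_sum_le i _ _).trans ?_
        apply Finset.sup_le
        intro k hk
        rw [Finset.mem_piAntidiag] at hk
        rcases eq_or_ne ((Nat.multinomial s k : Ω) * w k) 0 with h0 | h0
        · rw [h0, monomial_zero, degreeOf_zero]
          exact Nat.zero_le _
        · rw [degreeOf_monomial_eq _ _ h0, Finsupp.equivFunOnFinite_symm_apply_apply]
          by_cases hki : k i = 0
          · rw [hki]; exact Nat.zero_le _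
          · refine le_trans ?_ hj
            rw [← hk.1]
            exact Finset.single_le_sum (fun _ _ => Nat.zero_le _) (hk.2 i hki)
      · intro a ha b hb hab
        rw [Finset.coe_range, Set.mem_Iio] at ha hb
        exact cast_inj_of_le hE (by omega) (by omega) hab
    · intro x hx
      have hc : ∀ i, ∃ c : ℕ, c ≤ E ∧ (c : Ω) = x i := by
        intro i
        obtain ⟨c, hc, hcx⟩ := Finset.mem_image.1 (hx i)
        exact ⟨c, by rw [Finset.mem_range] at hc; omega, hcx⟩
      choose c hc hcx using hc
      rw [hP, map_sum, ← h c hc]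
      apply Finset.sum_congr rfl
      intro k hk
      rw [Finset.mem_piAntidiag] at hk
      rw [eval_monomial, Finsupp.prod_fintype _ _ (fun i => pow_zero _)]
      congr 1
      symm
      rw [Finset.prod_subset (Finset.subset_univ s)]
      · apply Finset.prod_congr rfl
        intro i _
        rw [hcx, Finsupp.equivFunOnFinite_symm_apply_apply]
      · intro i _ his
        have : k i = 0 := by
          by_contra h'
          exact his (hk.2 i h')
        rw [this, pow_zero]
  intro k hk
  have hco : coeff (Finsupp.equivFunOnFinite.symm k) P = (Nat.multinomial s k : Ω) * w k := by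
    rw [hP, coeff_sum, Finset.sum_eq_single k]
    · rw [coeff_monomial, if_pos rfl]
    · intro k' _ hk'
      rw [coeff_monomial, if_neg]
      intro h'
      exact hk' (Finsupp.equivFunOnFinite.symm.injective h')
    · intro h'
      exact absurd hk h'
  rw [hP0, coeff_zero] at hco
  rw [Finset.mem_piAntidiag] at hk
  have hm : (Nat.multinomial s k : Ω) ≠ 0 := by
    apply cast_ne_of_le hE
    have h1 := Nat.multinomial_spec s k
    rw [hk.1] at h1
    exact (Dvd.intro_left _ h1).trans (Nat.factorial_dvd_factorial hj)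
  rcases mul_eq_zero.1 hco.symm with h1 | h1
  · exact absurd h1 hm
  · exact h1

end interp

/-- the linear form with coefficients `c` in the variables after `a` -/
noncomputable def lf (Ω : Type*) [CommSemiring Ω] {n : ℕ} (a : Fin n) (c : Fin n → ℕ) :
    MvPolynomial (Fin n) Ω :=
  ∑ k ∈ Finset.Ioi a, C (c k : Ω) * X k

theorem two_point {Ω : Type*} [Field Ω] {e : ℕ} (he : 1 ≤ e) {s t U V : Ω}
    (h : ∀ m ≤ e, s ^ (e - m) * t ^ m = U ^ (e - m) * V ^ m) :
    ∃ ε : Ω, ε ^ e = 1 ∧ s = ε * U ∧ t = ε * V := by
  have h0 := h 0 (Nat.zero_le _)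
  have he' := h e le_rfl
  have h1 := h 1 he
  rw [Nat.sub_zero, pow_zero, pow_zero, mul_one, mul_one] at h0
  rw [Nat.sub_self, pow_zero, pow_zero, one_mul, one_mul] at he'
  rw [pow_one, pow_one] at h1
  by_cases hU : U = 0
  · have hs : s = 0 := by
      rw [hU, zero_pow (by omega)] at h0
      exact pow_eq_zero_iff (by omega) |>.1 h0
    by_cases hV : V = 0
    · have ht : t = 0 := by
        rw [hV, zero_pow (by omega)] at he'
        exact pow_eq_zero_iff (by omega) |>.1 he'
      exact ⟨1, one_pow _, by rw [hs, hU, mul_zero], by rw [ht, hV, mul_zero]⟩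
    · refine ⟨t / V, ?_, ?_, ?_⟩
      · rw [div_pow, he', div_self (pow_ne_zero _ hV)]
      · rw [hs, hU, mul_zero]
      · rw [div_mul_cancel₀ _ hV]
  · have hs : s ≠ 0 := by
      intro hs
      rw [hs, zero_pow (by omega)] at h0
      exact hU (pow_eq_zero_iff (by omega) |>.1 h0.symm)
    refine ⟨s / U, ?_, ?_, ?_⟩
    · rw [div_pow, h0, div_self (pow_ne_zero _ hU)]
    · rw [div_mul_cancel₀ _ hU]
    · obtain ⟨f, rfl⟩ : ∃ f, e = f + 1 := ⟨e - 1, by omega⟩
      rw [Nat.add_sub_cancel] at h1
      rw [pow_succ, pow_succ] at h0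
      field_simp
      have h2 : s ^ f * (t * U) = s ^ f * (s * V) := by
        calc s ^ f * (t * U) = (s ^ f * t) * U := by ring
          _ = U ^ f * V * U := by rw [h1]
          _ = (U ^ f * U) * V := by ring
          _ = (s ^ f * s) * V := by rw [h0]
          _ = s ^ f * (s * V) := by ring
      exact mul_left_cancel₀ (pow_ne_zero _ hs) h2

section main

variable {Ω : Type*} [Field Ω] {n E e : ℕ}

/-- the values of a functional on `x_a^(e-j) (sum c_k x_k)^j` -/
theorem lam_lf (Λ : MvPolynomial (Fin n) Ω →ₗ[Ω] Ω) (a : Fin n) (c : Fin n → ℕ) (j e : ℕ) :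
    Λ (X a ^ (e - j) * lf Ω a c ^ j) = ∑ k ∈ (Finset.Ioi a).piAntidiag j,
      (Nat.multinomial (Finset.Ioi a) k : Ω) *
        Λ (X a ^ (e - j) * ∏ i ∈ Finset.Ioi a, X i ^ k i) *
        ∏ i ∈ Finset.Ioi a, (c i : Ω) ^ k i := by
  rw [lf, Finset.sum_pow_eq_sum_piAntidiag, Finset.mul_sum, map_sum]
  apply Finset.sum_congr rfl
  intro k _
  have h1 : (X a ^ (e - j) * ((Nat.multinomial (Finset.Ioi a) k : MvPolynomial (Fin n) Ω) *
      ∏ i ∈ Finset.Ioi a, (C (c i : Ω) * X i) ^ k i)) =
      ((Nat.multinomial (Finset.Ioi a) k : Ω) * ∏ i ∈ Finset.Ioi a, (c i : Ω) ^ k i) •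
        (X a ^ (e - j) * ∏ i ∈ Finset.Ioi a, X i ^ k i) := by
    rw [smul_eq_C_mul, map_mul, map_natCast, map_prod]
    simp_rw [mul_pow, map_pow]
    rw [Finset.prod_mul_distrib]
    ring
  rw [h1, map_smul, smul_eq_mul]
  ring

theorem monomial_split (a : Fin n) (m : Fin n →₀ ℕ) (hm : ∀ i < a, m i = 0) :
    (monomial m (1 : Ω)) = X a ^ m a * ∏ i ∈ Finset.Ioi a, X i ^ m i := by
  rw [monomial_eq, C_1, one_mul, Finsupp.prod_fintype _ _ (fun i => pow_zero _)]
  rw [← Finset.prod_subset (Finset.subset_univ (Finset.Ici a))]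
  · rw [← Finset.Ioi_insert, Finset.prod_insert (by simp)]
  · intro i _ hi
    rw [Finset.mem_Ici, not_le] at hi
    rw [hm i hi, pow_zero]

/-- **Base locus.**  A functional on the forms of degree `e` whose restriction to every plane
`<x_a, l>` is a point evaluation, is a point evaluation. -/
theorem base_locus (hE : (E.factorial : Ω) ≠ 0) (he : 1 ≤ e) (heE : e ≤ E)
    (Λ : MvPolynomial (Fin n) Ω →ₗ[Ω] Ω)
    (h : ∀ (a : Fin n) (c : Fin n → ℕ), (∀ i, c i ≤ E) →
      ∃ s t : Ω, ∀ m ≤ e, Λ (X a ^ (e - m) * lf Ω a c ^ m) = s ^ (e - m) * t ^ m) :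
    ∃ lam : Fin n → Ω, ∀ f : MvPolynomial (Fin n) Ω, f.IsHomogeneous e → Λ f = eval lam f := by
  classical
  -- the indices with `Λ (x_a ^ e) = 0`
  have hzero : ∀ a : Fin n, Λ (X a ^ e) = 0 → ∀ j < e, ∀ k ∈ (Finset.Ioi a).piAntidiag j,
      Λ (X a ^ (e - j) * ∏ i ∈ Finset.Ioi a, X i ^ k i) = 0 := by
    intro a ha j hj
    apply interp hE (hj.le.trans heE) (Finset.Ioi a)
      (fun k => Λ (X a ^ (e - j) * ∏ i ∈ Finset.Ioi a, X i ^ k i))
    intro c hc
    rw [← lam_lf]
    obtain ⟨s, t, hst⟩ := h a c hc
    have h0 := hst 0 (Nat.zero_le _)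
    rw [Nat.sub_zero, pow_zero, pow_zero, mul_one, mul_one, ha] at h0
    have hs : s = 0 := pow_eq_zero_iff (by omega) |>.1 h0.symm
    rw [hst j hj.le, hs, zero_pow (by omega), zero_mul]
  have hzero' : ∀ a : Fin n, Λ (X a ^ e) = 0 → ∀ m : Fin n →₀ ℕ, m.degree = e →
      (∀ i < a, m i = 0) → m a ≠ 0 → Λ (monomial m 1) = 0 := by
    intro a ha m hm hlt hma
    rw [monomial_split a m hlt]
    have hsum : m.degree = m a + ∑ i ∈ Finset.Ioi a, m i := by
      rw [Finsupp.degree_eq_sum, ← Finset.sum_subset (Finset.subset_univ (Finset.Ici a))]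
      · rw [← Finset.Ioi_insert, Finset.sum_insert (by simp)]
      · intro i _ hi
        rw [Finset.mem_Ici, not_le] at hi
        exact hlt i hi
    have h2 := hzero a ha (∑ i ∈ Finset.Ioi a, m i) (by omega)
      (fun i => if i ∈ Finset.Ioi a then m i else 0) (by
        rw [Finset.mem_piAntidiag]
        constructor
        · apply Finset.sum_congr rfl
          intro i hi
          rw [if_pos hi]
        · intro i hi
          by_contra h'
          rw [if_neg h'] at hi
          exact hi rfl)
    have h3 : e - ∑ i ∈ Finset.Ioi a, m i = m a := by omega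
    rw [h3] at h2
    rw [← h2]
    congr 2
    apply Finset.prod_congr rfl
    intro i hi
    rw [if_pos hi]
  by_cases hex : ∃ a : Fin n, Λ (X a ^ e) ≠ 0
  · -- the first index with `Λ (x_a ^ e) ≠ 0`
    obtain ⟨a, ha, hmin⟩ : ∃ a : Fin n, Λ (X a ^ e) ≠ 0 ∧ ∀ i < a, Λ (X i ^ e) = 0 := by
      have hne : (Finset.univ.filter fun a : Fin n => Λ (X a ^ e) ≠ 0).Nonempty := by
        obtain ⟨a, ha⟩ := hex
        exact ⟨a, by simpa using ha⟩
      refine ⟨(Finset.univ.filter fun a : Fin n => Λ (X a ^ e) ≠ 0).min' hne, ?_, ?_⟩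
      · have := Finset.min'_mem _ hne
        simpa using this
      · intro i hi
        by_contra h'
        have := Finset.min'_le (Finset.univ.filter fun a : Fin n => Λ (X a ^ e) ≠ 0) i
          (by simpa using h')
        exact absurd hi (not_lt.2 this)
    obtain ⟨u, t0, hut⟩ := h a 0 (fun _ => Nat.zero_le _)
    have hu : u ^ e = Λ (X a ^ e) := by
      have := hut 0 (Nat.zero_le _)
      rw [Nat.sub_zero, pow_zero, pow_zero, mul_one, mul_one] at this
      exact this.symm
    have hu0 : u ≠ 0 := by
      intro h0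
      rw [h0, zero_pow (by omega)] at hu
      exact ha hu.symm
    set lam : Fin n → Ω := fun k => if k < a then 0 else if k = a then u else
      Λ (X a ^ (e - 1) * X k) / u ^ (e - 1) with hlam
    have hlama : lam a = u := by
      simp [hlam]
    have hlamlt : ∀ k < a, lam k = 0 := by
      intro k hk
      simp [hlam, hk]
    have hlamgt : ∀ k, a < k → lam k = Λ (X a ^ (e - 1) * X k) / u ^ (e - 1) := by
      intro k hk
      simp [hlam, not_lt.2 hk.le, hk.ne']
    -- the values on the planes of `a`
    have hval : ∀ c : Fin n → ℕ, (∀ i, c i ≤ E) → ∀ m ≤ e,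
        Λ (X a ^ (e - m) * lf Ω a c ^ m) =
          u ^ (e - m) * (∑ k ∈ Finset.Ioi a, (c k : Ω) * lam k) ^ m := by
      intro c hc
      obtain ⟨s, t, hst⟩ := h a c hc
      have h0 := hst 0 (Nat.zero_le _)
      rw [Nat.sub_zero, pow_zero, pow_zero, mul_one, mul_one, ← hu] at h0
      have hs : s ≠ 0 := by
        intro hs
        rw [hs, zero_pow (by omega)] at h0
        exact hu0 (pow_eq_zero_iff (by omega) |>.1 h0)
      have hζ : (u / s) ^ e = 1 := by
        rw [div_pow, h0, div_self (pow_ne_zero _ hs)]
      have hst' : ∀ m ≤ e, Λ (X a ^ (e - m) * lf Ω a c ^ m) = u ^ (e - m) * (u / s * t) ^ m := by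
        intro m hm
        rw [hst m hm]
        have h1 : s ^ (e - m) * t ^ m = (u / s) ^ e * (s ^ (e - m) * t ^ m) := by
          rw [hζ, one_mul]
        rw [h1]
        have h2 : (u / s) ^ e = (u / s) ^ (e - m) * (u / s) ^ m := by
          rw [← pow_add]
          congr 1
          omega
        rw [h2, mul_pow (u / s) t m]
        have h3 : (u / s) ^ (e - m) * s ^ (e - m) = u ^ (e - m) := by
          rw [← mul_pow, div_mul_cancel₀ _ hs]
        rw [← h3]
        ring
      have hlin : (∑ k ∈ Finset.Ioi a, (c k : Ω) * lam k) = u / s * t := by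
        have h1 := hst' 1 he
        rw [pow_one, pow_one, lf, Finset.mul_sum, map_sum] at h1
        have h2 : ∀ k ∈ Finset.Ioi a, Λ (X a ^ (e - 1) * (C (c k : Ω) * X k)) =
            u ^ (e - 1) * ((c k : Ω) * lam k) := by
          intro k hk
          rw [hlamgt k (Finset.mem_Ioi.1 hk)]
          have : (X a ^ (e - 1) * (C (c k : Ω) * X k) : MvPolynomial (Fin n) Ω) =
              (c k : Ω) • (X a ^ (e - 1) * X k) := by
            rw [smul_eq_C_mul]; ring
          rw [this, map_smul, smul_eq_mul]
          field_simp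
        rw [Finset.sum_congr rfl h2, ← Finset.mul_sum] at h1
        exact mul_left_cancel₀ (pow_ne_zero _ hu0) h1
      intro m hm
      rw [hst' m hm, hlin]
    -- the values on the monomials after `a`
    have hmon : ∀ j ≤ e, ∀ k ∈ (Finset.Ioi a).piAntidiag j,
        Λ (X a ^ (e - j) * ∏ i ∈ Finset.Ioi a, X i ^ k i) =
          u ^ (e - j) * ∏ i ∈ Finset.Ioi a, lam i ^ k i := by
      intro j hj k hk
      rw [← sub_eq_zero]
      revert k hk
      apply interp hE (hj.trans heE) (Finset.Ioi a)
        (fun k => Λ (X a ^ (e - j) * ∏ i ∈ Finset.Ioi a, X i ^ k i) -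
          u ^ (e - j) * ∏ i ∈ Finset.Ioi a, lam i ^ k i)
      intro c hc
      have h1 := hval c hc j hj
      rw [lam_lf, Finset.sum_pow_eq_sum_piAntidiag, Finset.mul_sum, ← sub_eq_zero,
        ← Finset.sum_sub_distrib] at h1
      rw [← h1]
      apply Finset.sum_congr rfl
      intro k _
      simp_rw [mul_pow]
      rw [Finset.prod_mul_distrib]
      ring
    refine ⟨lam, fun f hf => ?_⟩
    have hmono : ∀ m : Fin n →₀ ℕ, m.degree = e → Λ (monomial m 1) = eval lam (monomial m 1) := by
      intro m hm
      -- the first index in the support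
      by_cases hlt : ∃ i < a, m i ≠ 0
      · obtain ⟨b, hb, hmb, hbmin⟩ : ∃ b < a, m b ≠ 0 ∧ ∀ i < b, m i = 0 := by
          have hne : (Finset.univ.filter fun b : Fin n => m b ≠ 0).Nonempty := by
            obtain ⟨b, _, hb⟩ := hlt
            exact ⟨b, by simpa using hb⟩
          refine ⟨(Finset.univ.filter fun b : Fin n => m b ≠ 0).min' hne, ?_, ?_, ?_⟩
          · obtain ⟨b, hba, hb⟩ := hlt
            exact (Finset.min'_le (Finset.univ.filter fun b : Fin n => m b ≠ 0) b
              (by simpa using hb)).trans_lt hba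
          · have := Finset.min'_mem _ hne
            simpa using this
          · intro i hi
            by_contra h'
            have := Finset.min'_le (Finset.univ.filter fun b : Fin n => m b ≠ 0) i
              (by simpa using h')
            exact absurd hi (not_lt.2 this)
        rw [hzero' b (hmin b hb) m hm hbmin hmb, eval_monomial,
          Finsupp.prod_fintype _ _ (fun i => pow_zero _), one_mul]
        symm
        apply Finset.prod_eq_zero (Finset.mem_univ b)
        rw [hlamlt b hb, zero_pow hmb]
      · have hlt' : ∀ i < a, m i = 0 := by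
          intro i hi
          by_contra h'
          exact hlt ⟨i, hi, h'⟩
        have hsum : m.degree = m a + ∑ i ∈ Finset.Ioi a, m i := by
          rw [Finsupp.degree_eq_sum, ← Finset.sum_subset (Finset.subset_univ (Finset.Ici a))]
          · rw [← Finset.Ioi_insert, Finset.sum_insert (by simp)]
          · intro i _ hi
            rw [Finset.mem_Ici, not_le] at hi
            exact hlt' i hi
        have hR : eval lam (X a ^ m a * ∏ i ∈ Finset.Ioi a, X i ^ m i) =
            u ^ m a * ∏ i ∈ Finset.Ioi a, lam i ^ m i := by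
          rw [map_mul, map_pow, eval_X, map_prod, hlama]
          simp_rw [map_pow, eval_X]
        rw [monomial_split a m hlt', hR]
        have h2 := hmon (∑ i ∈ Finset.Ioi a, m i) (by omega)
          (fun i => if i ∈ Finset.Ioi a then m i else 0) (by
            rw [Finset.mem_piAntidiag]
            constructor
            · apply Finset.sum_congr rfl
              intro i hi
              rw [if_pos hi]
            · intro i hi
              by_contra h'
              rw [if_neg h'] at hi
              exact hi rfl)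
        have h3 : e - ∑ i ∈ Finset.Ioi a, m i = m a := by omega
        rw [h3] at h2
        have h4 : ∀ z : Fin n → Ω, ∏ i ∈ Finset.Ioi a, z i ^
            (if i ∈ Finset.Ioi a then m i else 0) = ∏ i ∈ Finset.Ioi a, z i ^ m i := by
          intro z
          apply Finset.prod_congr rfl
          intro i hi
          rw [if_pos hi]
        have h5 : ∏ i ∈ Finset.Ioi a, (X i : MvPolynomial (Fin n) Ω) ^
            (if i ∈ Finset.Ioi a then m i else 0) = ∏ i ∈ Finset.Ioi a, X i ^ m i := by
          apply Finset.prod_congr rfl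
          intro i hi
          rw [if_pos hi]
        rw [h4, h5] at h2
        exact h2
    rw [f.as_sum, map_sum, map_sum]
    apply Finset.sum_congr rfl
    intro m hm
    have h1 : (monomial m (coeff m f) : MvPolynomial (Fin n) Ω) = coeff m f • monomial m 1 := by
      rw [smul_monomial, smul_eq_mul, mul_one]
    rw [h1, map_smul, smul_eval, smul_eq_mul, hmono m]
    have := hf (mem_support_iff.1 hm)
    rwa [Finsupp.degree_eq_weight_one]
  · refine ⟨0, fun f hf => ?_⟩
    have hall : ∀ a : Fin n, Λ (X a ^ e) = 0 := by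
      intro a
      by_contra h'
      exact hex ⟨a, h'⟩
    rw [f.as_sum, map_sum, map_sum]
    apply Finset.sum_congr rfl
    intro m hm
    have hdeg : m.degree = e := by
      have := hf (mem_support_iff.1 hm)
      rwa [Finsupp.degree_eq_weight_one]
    have h1 : (monomial m (coeff m f) : MvPolynomial (Fin n) Ω) = coeff m f • monomial m 1 := by
      rw [smul_monomial, smul_eq_mul, mul_one]
    obtain ⟨b, hmb, hbmin⟩ : ∃ b : Fin n, m b ≠ 0 ∧ ∀ i < b, m i = 0 := by
      have hne : (Finset.univ.filter fun b : Fin n => m b ≠ 0).Nonempty := by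
        by_contra h'
        rw [Finset.not_nonempty_iff_eq_empty, Finset.filter_eq_empty_iff] at h'
        have : m = 0 := by
          ext i
          have := h' (Finset.mem_univ i)
          simpa using this
        rw [this, map_zero] at hdeg
        omega
      refine ⟨(Finset.univ.filter fun b : Fin n => m b ≠ 0).min' hne, ?_, ?_⟩
      · have := Finset.min'_mem _ hne
        simpa using this
      · intro i hi
        by_contra h'
        have := Finset.min'_le (Finset.univ.filter fun b : Fin n => m b ≠ 0) i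
          (by simpa using h')
        exact absurd hi (not_lt.2 this)
    rw [h1, map_smul, smul_eval, hzero' b (hall b) m hdeg hbmin hmb, smul_zero, eval_monomial,
      Finsupp.prod_fintype _ _ (fun i => pow_zero _), one_mul]
    symm
    apply mul_eq_zero_of_right
    apply Finset.prod_eq_zero (Finset.mem_univ b)
    rw [Pi.zero_apply, zero_pow hmb]

/-- the points of the planes are the restrictions of the point, up to a root of unity -/
theorem base_locus_plane (he : 1 ≤ e) (Λ : MvPolynomial (Fin n) Ω →ₗ[Ω] Ω) {lam : Fin n → Ω}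
    (hlam : ∀ f : MvPolynomial (Fin n) Ω, f.IsHomogeneous e → Λ f = eval lam f)
    {u v : MvPolynomial (Fin n) Ω} (hu : u.IsHomogeneous 1) (hv : v.IsHomogeneous 1) {s t : Ω}
    (h : ∀ m ≤ e, Λ (u ^ (e - m) * v ^ m) = s ^ (e - m) * t ^ m) :
    ∃ ε : Ω, ε ^ e = 1 ∧ s = ε * eval lam u ∧ t = ε * eval lam v := by
  apply two_point he
  intro m hm
  rw [← h m hm, hlam, map_mul, map_pow, map_pow]
  have := (hu.pow (e - m)).mul (hv.pow m)
  convert this using 1
  omega

end main

end Vale.Agent.P200.U
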