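import Vale.Agent.P200.W.Defs

/-!
Eisenbud-Green-Harris for regular sequences of forms of the same degree `b` (any `b ≥ 2`): definitions.

`D` is a division algebra over the field `K`; `PA D R = D[x_g, y_g, w_g : g < R]` (central variables);
`c g m ∈ K` is the coefficient of `x_g^(b-m) y_g^m` in the binary form `F_g`.  The objects are the
left submodules `N` of `(PA D R)^s` which are multihomogeneous (one degree for every block `g`) and contain the
multiples of `w_g^b - F_g`: they stand for the modules `(PA D R)^s / N`.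
-/

namespace Vale.Agent.P200.U

open Module

universe u v

/-- exponents: `(g, 0)`, `(g, 1)`, `(g, 2)` are the exponents of `x_g`, `y_g`, `w_g` -/
abbrev Mon (R : ℕ) : Type := (Fin R × Fin 3) →₀ ℕ

/-- the polynomial ring over `D` in the central variables `x_g`, `y_g`, `w_g` -/
abbrev PA (D : Type*) [Semiring D] (R : ℕ) : Type _ := AddMonoidAlgebra D (Mon R)

/-- the multidegree of a monomial -/
def mdeg {R : ℕ} (m : Mon R) (g : Fin R) : ℕ := m (g, 0) + m (g, 1) + m (g, 2)

section ring
variable (D : Type u) [DivisionRing D] (R : ℕ)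

/-- the variables -/
noncomputable def va (v : Fin R × Fin 3) : PA D R :=
  AddMonoidAlgebra.single (Finsupp.single v 1) 1

/-- the polynomials of multidegree `n` -/
def pp (n : Fin R → ℕ) : Submodule D (PA D R) where
  carrier := {u | ∀ m, u.coeff m ≠ 0 → mdeg m = n}
  add_mem' := by
    intro a b ha hb m hm
    by_contra h
    rw [AddMonoidAlgebra.coeff_add, Finsupp.add_apply,
      of_not_not (fun h' => h (ha m h')), of_not_not (fun h' => h (hb m h')), add_zero] at hm
    exact hm rfl
  zero_mem' := by
    intro m hm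
    rw [AddMonoidAlgebra.coeff_zero, Finsupp.zero_apply] at hm
    exact absurd rfl hm
  smul_mem' := by
    intro k a ha m hm
    by_contra h
    rw [AddMonoidAlgebra.coeff_smul_apply, of_not_not (fun h' => h (ha m h')), smul_zero] at hm
    exact hm rfl

/-- the vectors of multidegree `n` -/
def pv (s : ℕ) (n : Fin R → ℕ) : Submodule D (Fin s → PA D R) where
  carrier := {u | ∀ i, u i ∈ pp D R n}
  add_mem' ha hb i := Submodule.add_mem _ (ha i) (hb i)
  zero_mem' _ := Submodule.zero_mem _
  smul_mem' k _ ha i := Submodule.smul_mem _ k (ha i)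

/-- the component of multidegree `n` of a polynomial -/
noncomputable def cp (n : Fin R → ℕ) : PA D R →ₗ[D] PA D R where
  toFun u := AddMonoidAlgebra.ofCoeff (u.coeff.filter fun m => mdeg m = n)
  map_add' u v := by
    apply AddMonoidAlgebra.ext
    exact Finsupp.filter_add
  map_smul' k u := by
    apply AddMonoidAlgebra.ext
    exact Finsupp.filter_smul

/-- the component of multidegree `n` of a vector -/
noncomputable def cv (s : ℕ) (n : Fin R → ℕ) : (Fin s → PA D R) →ₗ[D] (Fin s → PA D R) where
  toFun u i := cp D R n (u i)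
  map_add' u v := by
    ext1 i
    exact map_add (cp D R n) _ _
  map_smul' k u := by
    ext1 i
    exact map_smul (cp D R n) _ _

end ring

section objects
variable {K : Type u} [Field K] {D : Type u} [DivisionRing D] [Algebra K D] {R : ℕ}

/-- the relation `w_g^b - F_g` -/
noncomputable def rel (D : Type u) [DivisionRing D] [Algebra K D] (b : ℕ) (c : Fin R → ℕ → K)
    (g : Fin R) : PA D R :=
  va D R (g, 2) ^ b - ∑ m ∈ Finset.range (b + 1),
    algebraMap K D (c g m) • (va D R (g, 0) ^ (b - m) * va D R (g, 1) ^ m)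

/-- the multihomogeneous submodules containing the relations -/
structure IsG (b : ℕ) (c : Fin R → ℕ → K) {s : ℕ}
    (N : Submodule (PA D R) (Fin s → PA D R)) : Prop where
  hom : ∀ u ∈ N, ∀ n, cv D R s n u ∈ N
  rel : ∀ g i, (Pi.single i (rel D b c g) : Fin s → PA D R) ∈ N

/-- the dimension of `(PA D R)^s / N` in degree `n` -/
noncomputable def qd {s : ℕ} (N : Submodule (PA D R) (Fin s → PA D R)) (n : Fin R → ℕ) : ℕ :=
  finrank D (pv D R s n) - finrank D (pv D R s n ⊓ N.restrictScalars D : Submodule D _)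

end objects

/-- the dimensions of `K[x, y, w] / (w^b - F)` in large degrees -/
def hO (b : ℕ) (n : ℤ) : ℤ := b * (n + 1) - (b : ℤ) * (b - 1) / 2

/-- the lattice of functions generated by the products of `h_O` and of the constant `b` -/
def Lam (b : ℕ) : (R : ℕ) → ((Fin R → ℤ) → ℤ) → Prop
  | 0, _ => True
  | R + 1, f => ∃ A B, Lam b R A ∧ Lam b R B ∧
      ∀ n, f n = A (Fin.tail n) * hO b (n 0) + B (Fin.tail n) * b

theorem lam_zero (b : ℕ) (f : (Fin 0 → ℤ) → ℤ) : Lam b 0 f ↔ True := by
  rw [Lam]

theorem lam_succ (b R : ℕ) (f : (Fin (R + 1) → ℤ) → ℤ) : Lam b (R + 1) f ↔ ∃ A B, Lam b R A ∧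
    Lam b R B ∧ ∀ n, f n = A (Fin.tail n) * hO b (n 0) + B (Fin.tail n) * b := by
  rw [Lam]

/-- **Integrality.**  The dimensions of every object are eventually given by a function of the
lattice. -/
def IntP {K : Type u} [Field K] (D : Type u) [DivisionRing D] [Algebra K D] (b R : ℕ)
    (c : Fin R → ℕ → K) : Prop :=
  ∀ (s : ℕ) (N : Submodule (PA D R) (Fin s → PA D R)), IsG b c N →
    ∃ f, Lam b R f ∧ ∃ n0 : ℕ, ∀ n : Fin R → ℕ, (∀ g, n0 ≤ n g) → (qd N n : ℤ) = f fun g => n g

/-- integrality for every collection of different blocks -/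
def IntAll {K : Type u} [Field K] (D : Type u) [DivisionRing D] [Algebra K D] (b R : ℕ)
    (c : Fin R → ℕ → K) : Prop :=
  ∀ (R' : ℕ) (σ : Fin R' → Fin R), Function.Injective σ → IntP D b R' (c ∘ σ)

/-- **Transfer** (one step of the tower). -/
def Step (K : Type u) [Field K] (b : ℕ) : Prop :=
  ∀ (D : Type u) [DivisionRing D] [Algebra K D] (R : ℕ) (c : Fin (R + 1) → ℕ → K),
    IntAll D b (R + 1) c →
    ∃ (D' : Type u) (_ : DivisionRing D') (_ : Algebra K D') (ι : D →ₐ[K] D') (e : Fin 2 → D'),
      (∀ ε d, e ε * ι d = ι d * e ε) ∧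
      (∀ m ≤ b, W.wsum (e 0) (e 1) b m = algebraMap K D' (c 0 m)) ∧
      IntAll D' b R fun g => c g.succ

/-- **The tower.** -/
theorem tower {K : Type u} [Field K] {b : ℕ} (hstep : Step K b) :
    ∀ (R : ℕ) (c : Fin R → ℕ → K) (D : Type u) [DivisionRing D] [Algebra K D],
      IntAll D b R c →
      ∃ (D' : Type u) (_ : DivisionRing D') (_ : Algebra K D') (ι : D →ₐ[K] D')
        (E : Fin R → Fin 2 → D'),
        (∀ g ε d, E g ε * ι d = ι d * E g ε) ∧
        (∀ g h, g ≠ h → ∀ ε δ, E g ε * E h δ = E h δ * E g ε) ∧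
        ∀ g, ∀ m ≤ b, W.wsum (E g 0) (E g 1) b m = algebraMap K D' (c g m) := by
  intro R
  induction R with
  | zero =>
    intro c D _ _ _
    exact ⟨D, inferInstance, inferInstance, AlgHom.id K D, fun g => g.elim0, fun g => g.elim0,
      fun g => g.elim0, fun g => g.elim0⟩
  | succ R ih =>
    intro c D _ _ hI
    obtain ⟨D1, i1, a1, ι1, e, he, hw, hI'⟩ := hstep D R c hI
    obtain ⟨D2, i2, a2, ι2, E, hE, hEE, hEw⟩ := ih (fun g => c g.succ) D1 hI'
    have hmap : ∀ (N m : ℕ), W.wsum (ι2 (e 0)) (ι2 (e 1)) N m = ι2 (W.wsum (e 0) (e 1) N m) := by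
      intro N
      induction N with
      | zero =>
        intro m
        cases m with
        | zero => rw [W.wsum_zero_zero', W.wsum_zero_zero', map_one]
        | succ m => rw [W.wsum_zero_succ', W.wsum_zero_succ', map_zero]
      | succ N ihN =>
        intro m
        cases m with
        | zero => rw [W.wsum_succ_zero', W.wsum_succ_zero', map_mul, ihN]
        | succ m =>
          rw [W.wsum_succ_succ', W.wsum_succ_succ', map_add, map_mul, map_mul, ihN, ihN]
    refine ⟨D2, i2, a2, ι2.comp ι1, Fin.cons (fun ε => ι2 (e ε)) E, ?_, ?_, ?_⟩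
    · intro g ε d
      refine Fin.cases ?_ (fun g => ?_) g
      · rw [Fin.cons_zero, AlgHom.comp_apply, ← map_mul, he, map_mul]
      · rw [Fin.cons_succ, AlgHom.comp_apply, hE]
    · intro g h hgh ε δ
      revert hgh
      refine Fin.cases ?_ (fun g => ?_) g <;> refine Fin.cases ?_ (fun h => ?_) h
      · intro hgh
        exact absurd rfl hgh
      · intro _
        rw [Fin.cons_zero, Fin.cons_succ, hE]
      · intro _
        rw [Fin.cons_zero, Fin.cons_succ, hE]
      · intro hgh
        rw [Fin.cons_succ, Fin.cons_succ]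
        exact hEE g h (fun h' => hgh (by rw [h'])) ε δ
    · intro g m hm
      refine Fin.cases ?_ (fun g => ?_) g
      · rw [Fin.cons_zero, hmap, hw m hm, AlgHom.commutes]
      · rw [Fin.cons_succ, hEw g m hm]

end Vale.Agent.P200.U
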