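import Vale.Agent.P200.E.RankFormula

/-!
**(B) Localization at a rank function.**

`C` is a small preadditive category with finite biproducts and cokernels, `rk : C → ℕ` a rank function
(`IsRank`): it decreases along epimorphisms, `rk Y ≤ rk X + rk (coker f)`, additive on biproducts,
`rk O = 1`.  `IsW rk s` : `rk (coker s) = 0` and `rk X = rk Y`.

`exists_loc`: there is a localization `L : C ⥤ 𝒰` inverting the `s` with `IsW rk s`, with common
denominators on the left, `End (L O)` is a division ring, and the rank formula for matrices.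

Proof.  `W = {s | IsW rk s}` is a multiplicative `MorphismProperty` and `W.HasLeftCalculusOfFractions`:
* composition: `coker s → coker (s ≫ t)` has cokernel `coker t`, so
  `rk coker (s ≫ t) ≤ rk coker s + rk coker t = 0`;
* Ore: for `s : X ⟶ Y` in `W`, `f : X ⟶ Z` let `P` be the cokernel of `(s, -f) : X ⟶ Y ⊞ Z` and
  `t : Z ⟶ P`, `g : Y ⟶ P`; `coker t = coker s` has rank `0`; `rk P ≤ rk Z + 0`, and
  `rk Y + rk Z ≤ rk X + rk P`; so `t ∈ W`;
* if `s ≫ f = s ≫ g`, `s : X ⟶ Y` in `W`, `f g : Y ⟶ Z`, let `t : Z ⟶ P` be the cokernel of `f - g`; `f - g`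
  factors through `coker s` (`Y ⟶ coker s ⟶ Z`) and `coker (f - g) = coker (coker s ⟶ Z)`, so
  `rk Z ≤ 0 + rk P`, and `rk P ≤ rk Z`, `coker t = 0` (`rk 0 = 0` by additivity on biproducts).
So `𝒰 = W.Localization`, `L = W.Q` (Mathlib: `Localization/CalculusOfFractions/Preadditive.lean`), every
morphism `L X ⟶ L Y` is `L f ≫ inv (L s)`, `s ∈ W`, and `L f = 0` iff `f ≫ t = 0` for some `t ∈ W`.
* `rk (coker g) = 0` for `g : X ⟶ Y` implies `L g` epi: if `L g ≫ a = 0`, `a = L f ≫ inv (L s)`,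
  `f s : Y, Z' ⟶ Z`, then `g ≫ f ≫ t = 0` with `t ∈ W`, so `f ≫ t` factors through `coker g` (rank `0`), let
  `p` be the cokernel of `coker g ⟶ Z''`: `p ∈ W` (same computation as above) and `f ≫ t ≫ p = 0`.
* `End (L O)`: `a = L f ≫ inv (L s) ≠ 0`, `s f : O ⟶ X`, `rk X = 1`, `rk (coker f) ∈ {0, 1}`; if `0` then
  `f ∈ W` and `a` is an isomorphism; if `1` then `p : X ⟶ coker f` is in `W` and `f ≫ p = 0`, `a = 0`.
  `1 ≠ 0`: if `t : O ⟶ X` is in `W` and `t = 0` then `rk X = rk (coker t) = 0 ≠ 1`.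
* rank formula.  Let `r` = rank of `(a j i)` (row space).  Choose a basis of the row space among the rows,
  `J0 ⊆ J`, `card J0 = r`, so `L (matrix f|J0)` and `L (matrix f)` ... ; e.g. first prove: if
  `g : Z1 ⟶ Z2` and `L g` is an epimorphism and `Z2 = X^I` then `rk (coker g) = 0` (an epimorphism
  `L g : O^J ⟶ O^I` over a division ring has a section `O^I ⟶ O^J`; hence there are `h : X^I → ...`, i.e. the
  composite `X^I ⟶ coker g ⟶ 0` ...: `L (X^I ⟶ coker g) = 0`, so there is `t : coker g ⟶ T` in `W` with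
  `X^I ⟶ coker g ⟶ T` zero, so `t = 0` and `rk T = rk (coker t) = 0`, `rk (coker g) = rk T = 0`).
  In general extend the rows `J0` by unit vectors `I1 ⊆ I`, `card I1 = q - r`, to a basis:
  `rk (coker g) ≤ q - r` since `coker g / (X^I1) ` has rank `0` (its presentation is an epimorphism in the
  localization; replace the `X`-rows by `O`-rows along `s`), and `q = rk X^I ≤ rk (O^J0) + rk (coker g|J0)
  = r + rk (coker g|J0)`; finally `rk (coker g|J0) = rk (coker g)`: `coker g` is the cokernel of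
  `O^(J - J0) ⟶ coker g|J0`, which is zero in the localization, so it is killed by some
  `t : coker g|J0 ⟶ T` in `W`, and `T` is a quotient up to `W` ... (`rk T ≤ rk (coker g) + rk (coker t)`).
-/

namespace Vale.Agent.P200.U

open CategoryTheory CategoryTheory.Limits

universe v u

section

variable {C : Type u} [Category.{v} C] [Preadditive C] [HasFiniteBiproducts C]
  [HasBinaryBiproducts C] [HasCokernels C]

/-- `rk` is a rank function with `rk O = 1`. -/
structure IsRank (O : C) (rk : C → ℕ) : Prop where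
  epi_le : ∀ {X Y : C} (f : X ⟶ Y), Epi f → rk Y ≤ rk X
  coker_le : ∀ {X Y : C} (f : X ⟶ Y), rk Y ≤ rk X + rk (cokernel f)
  biprod : ∀ X Y : C, rk (X ⊞ Y) = rk X + rk Y
  one : rk O = 1

/-- The morphisms to be inverted. -/
def IsW (rk : C → ℕ) {X Y : C} (s : X ⟶ Y) : Prop :=
  rk (cokernel s) = 0 ∧ rk X = rk Y

end

theorem exists_loc {C : Type u} [Category.{u} C] [Preadditive C] [HasFiniteBiproducts C]
    [HasBinaryBiproducts C]
    [HasCokernels C] {O : C} {rk : C → ℕ} (h : IsRank O rk) :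
    ∃ (𝒰 : Type u) (_ : Category.{u} 𝒰) (_ : Preadditive 𝒰) (L : C ⥤ 𝒰), L.Additive ∧
      (∀ {X Y : C} (s : X ⟶ Y), IsW rk s → IsIso (L.map s)) ∧
      (∀ {X Y : C} (g : X ⟶ Y), rk (cokernel g) = 0 → Epi (L.map g)) ∧
      (∀ {J : Type} [Finite J] {X Y : C} (a : J → (L.obj X ⟶ L.obj Y)),
        ∃ (Z : C) (s : Y ⟶ Z) (f : J → (X ⟶ Z)), IsW rk s ∧ ∀ j, a j ≫ L.map s = L.map (f j)) ∧
      𝟙 (L.obj O) ≠ 0 ∧ (∀ a : L.obj O ⟶ L.obj O, a ≠ 0 → IsIso a) ∧
      (∀ (z : ∀ X : C, X ⟶ X), (∀ {X Y : C} (f : X ⟶ Y), f ≫ z Y = z X ≫ f) →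
        ∀ a : L.obj O ⟶ L.obj O, a ≫ L.map (z O) = L.map (z O) ≫ a) ∧
      (∀ {J I : Type} [Fintype J] [Fintype I] {X : C} (s : O ⟶ X), IsW rk s →
        ∀ (f : J → I → (O ⟶ X)) (a : J → I → End (L.obj O)),
          (∀ j i, (a j i : L.obj O ⟶ L.obj O) ≫ L.map s = L.map (f j i)) →
          rk (cokernel (biproduct.matrix (f := fun _ : J => O) (g := fun _ : I => X) f)) +
            Module.finrank (End (L.obj O))ᵐᵒᵖ (Submodule.span (End (L.obj O))ᵐᵒᵖ
              (Set.range fun j i => MulOpposite.op (a j i))) = Fintype.card I) := by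
  let r : E.RankFn C :=
    { rk := rk
      rk_epi := fun f hf => h.epi_le f hf
      rk_coker := fun f => h.coker_le f
      rk_sum := fun X Y => h.biprod X Y }
  refine ⟨r.S.Localization, inferInstance, inferInstance, r.S.Q, inferInstance, ?_, ?_, ?_, ?_, ?_,
    ?_, ?_⟩
  · intro X Y s hs
    exact r.isIso_map r.S.Q s hs
  · intro X Y g hg
    exact r.epi_map r.S.Q g hg
  · intro J _ X Y a
    exact r.exists_common r.S.Q a
  · exact r.id_ne_zero r.S.Q (O := O) (by
      have := h.one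
      change rk O ≠ 0
      omega)
  · intro a ha
    exact r.isIso_of_ne_zero r.S.Q h.one a ha
  · intro z hz a
    exact r.comm_natural r.S.Q z (fun f => hz f) a
  · classical
    intro J I _ _ X s hs f a ha
    exact r.rank_formula r.S.Q h.one s hs f a ha

end Vale.Agent.P200.U
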