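import Mathlib

/-!
# P200 / U : Hilbert basis theorem for noncommutative coefficients

`A[X]` (with `X` central) is left noetherian when `A` is, hence `D[σ →₀ ℕ]` is left noetherian for
finite `σ`.
-/

open Polynomial

namespace Vale.Agent.P200.U

section Hilbert

variable {A : Type*} [Ring A]

/-- the left ideal of the coefficients in degree `n` of the elements of `I` of degree `≤ n` -/
lemma mem_lead (I : Ideal A[X]) (n : ℕ) (x : A) :
    x ∈ I.leadingCoeffNth n ↔ ∃ p ∈ I, degree p ≤ n ∧ p.coeff n = x := by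
  simp only [Ideal.leadingCoeffNth, Ideal.degreeLE, Submodule.mem_map, lcoeff_apply,
    Submodule.mem_inf, mem_degreeLE, Ideal.mem_ofPolynomial]
  constructor
  · rintro ⟨p, ⟨h1, h2⟩, h3⟩
    exact ⟨p, h2, h1, h3⟩
  · rintro ⟨p, h2, h1, h3⟩
    exact ⟨p, ⟨h1, h2⟩, h3⟩

lemma mul_X_pow_mem (I : Ideal A[X]) {p : A[X]} (hp : p ∈ I) (k : ℕ) : p * X ^ k ∈ I := by
  rw [← (X_pow_mul : X ^ k * p = p * X ^ k)]
  exact I.mul_mem_left _ hp

lemma lead_mono (I : Ideal A[X]) : Monotone fun n => I.leadingCoeffNth n := by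
  intro m n h x hx
  rw [mem_lead] at hx ⊢
  obtain ⟨p, hp, hd, hc⟩ := hx
  refine ⟨p * X ^ (n - m), mul_X_pow_mem I hp _, ?_, ?_⟩
  · refine (degree_mul_le _ _).trans ?_
    refine (add_le_add hd (degree_X_pow_le _)).trans ?_
    rw [← Nat.cast_add, add_tsub_cancel_of_le h]
  · have h1 : n = m + (n - m) := (add_tsub_cancel_of_le h).symm
    conv_lhs => rw [h1]
    rw [show m + (n - m) - m = n - m by omega, coeff_mul_X_pow, hc]

theorem isNoetherianRing_polynomial [IsNoetherianRing A] : IsNoetherianRing A[X] := by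
  classical
  refine isNoetherianRing_iff.2 ⟨fun (I : Ideal A[X]) => ?_⟩
  have hNA : IsNoetherian A A := isNoetherianRing_iff.1 inferInstance
  obtain ⟨N, hN⟩ := monotone_stabilizes_iff_noetherian.2 hNA
    ⟨fun n => I.leadingCoeffNth n, lead_mono I⟩
  have hfg : Submodule.FG (I.degreeLE N) :=
    isNoetherian_submodule_left.1
      (isNoetherian_of_fg_of_noetherian _ ⟨_, degreeLE_eq_span_X_pow.symm⟩) _
  obtain ⟨s, hs⟩ := hfg
  have hs2 : ∀ x ∈ I.degreeLE N, x ∈ Ideal.span (↑s : Set A[X]) := by
    intro x hx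
    rw [← hs] at hx
    refine Submodule.span_induction (fun _ hx => Ideal.subset_span hx) (Ideal.zero_mem _)
      (fun _ _ _ _ => Ideal.add_mem _) (fun c f _ hf => ?_) hx
    rw [← C_mul']
    exact Ideal.mul_mem_left _ _ hf
  refine ⟨s, le_antisymm (Ideal.span_le.2 fun x hx => ?_) ?_⟩
  · have : x ∈ I.degreeLE N := hs ▸ Submodule.subset_span hx
    exact this.2
  · intro p hp
    change p ∈ Ideal.span (↑s : Set A[X])
    have key : ∀ k : ℕ, ∀ p ∈ I, degree p ≤ k → p ∈ Ideal.span (↑s : Set A[X]) := by
      intro k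
      induction k with
      | zero =>
        intro p hp hd
        refine hs2 p ⟨mem_degreeLE.2 (hd.trans ?_), hp⟩
        exact_mod_cast Nat.zero_le N
      | succ k ih =>
        intro p hp hd
        rcases Nat.lt_or_ge N (k + 1) with h | h
        · have hx : p.coeff (k + 1) ∈ I.leadingCoeffNth (k + 1) :=
            (mem_lead I _ _).2 ⟨p, hp, hd, rfl⟩
          have h2 := hN (k + 1) h.le
          simp only [OrderHom.coe_mk] at h2
          rw [← h2, mem_lead] at hx
          obtain ⟨q, hq, hdq, hcq⟩ := hx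
          have hqs : q ∈ Ideal.span (↑s : Set A[X]) := hs2 q ⟨mem_degreeLE.2 hdq, hq⟩
          have hq' : q * X ^ (k + 1 - N) ∈ Ideal.span (↑s : Set A[X]) := mul_X_pow_mem _ hqs _
          have hsub : p - q * X ^ (k + 1 - N) ∈ Ideal.span (↑s : Set A[X]) := by
            refine ih _ (I.sub_mem hp (mul_X_pow_mem I hq _)) ?_
            rw [degree_le_iff_coeff_zero]
            intro m hm
            have hm' : k < m := by exact_mod_cast hm
            rcases Nat.lt_or_ge (k + 1) m with h3 | h3
            · have e1 : p.coeff m = 0 := by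
                refine coeff_eq_zero_of_degree_lt (hd.trans_lt ?_)
                exact_mod_cast h3
              have e2 : (q * X ^ (k + 1 - N)).coeff m = 0 := by
                rw [show m = (m - (k + 1 - N)) + (k + 1 - N) by omega, coeff_mul_X_pow]
                refine coeff_eq_zero_of_degree_lt (hdq.trans_lt ?_)
                have : N < m - (k + 1 - N) := by omega
                exact_mod_cast this
              rw [coeff_sub, e1, e2, sub_zero]
            · have e0 : m = k + 1 := by omega
              have e2 : (q * X ^ (k + 1 - N)).coeff m = q.coeff N := by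
                rw [e0]
                conv_lhs => rw [show k + 1 = N + (k + 1 - N) by omega]
                rw [show N + (k + 1 - N) - N = k + 1 - N by omega, coeff_mul_X_pow]
              rw [coeff_sub, e2, hcq, e0, sub_self]
          have := Ideal.add_mem _ hsub hq'
          rwa [sub_add_cancel] at this
        · refine hs2 p ⟨mem_degreeLE.2 (hd.trans ?_), hp⟩
          exact_mod_cast h
    exact key p.natDegree p hp degree_le_natDegree

end Hilbert

theorem isNoetherianRing_pa {D σ : Type*} [Ring D] [IsNoetherianRing D] [Finite σ] :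
    IsNoetherianRing (AddMonoidAlgebra D (σ →₀ ℕ)) := by
  have key : ∀ n : ℕ, IsNoetherianRing (AddMonoidAlgebra D (Fin n →₀ ℕ)) := by
    intro n
    induction n with
    | zero =>
      exact isNoetherianRing_of_ringEquiv D
        (AddMonoidAlgebra.uniqueRingEquiv (Fin 0 →₀ ℕ)).symm
    | succ n ih =>
      have h1 : IsNoetherianRing (Polynomial (AddMonoidAlgebra D (Fin n →₀ ℕ))) :=
        isNoetherianRing_polynomial
      have h2 : IsNoetherianRing
          (AddMonoidAlgebra (AddMonoidAlgebra D (Fin n →₀ ℕ)) ℕ) :=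
        isNoetherianRing_of_ringEquiv _ (Polynomial.toFinsuppIso _)
      have h3 : IsNoetherianRing
          (AddMonoidAlgebra (AddMonoidAlgebra D (Fin n →₀ ℕ)) (Fin 1 →₀ ℕ)) :=
        isNoetherianRing_of_ringEquiv _
          (AddMonoidAlgebra.mapDomainRingEquiv _ (Finsupp.uniqueAddEquiv (0 : Fin 1)).symm)
      have h4 : IsNoetherianRing (AddMonoidAlgebra D ((Fin 1 →₀ ℕ) × (Fin n →₀ ℕ))) :=
        isNoetherianRing_of_ringEquiv _ AddMonoidAlgebra.curryRingEquiv.symm
      have h5 : IsNoetherianRing (AddMonoidAlgebra D ((Fin 1 ⊕ Fin n) →₀ ℕ)) :=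
        isNoetherianRing_of_ringEquiv _
          (AddMonoidAlgebra.mapDomainRingEquiv D Finsupp.sumFinsuppAddEquivProdFinsupp.symm)
      exact isNoetherianRing_of_ringEquiv _
        (AddMonoidAlgebra.mapDomainRingEquiv D
          (Finsupp.domCongr (finSumFinEquiv.trans (finCongr (Nat.add_comm 1 n)))))
  obtain ⟨n, ⟨e⟩⟩ := Finite.exists_equiv_fin σ
  have := key n
  exact isNoetherianRing_of_ringEquiv _
    (AddMonoidAlgebra.mapDomainRingEquiv D (Finsupp.domCongr e.symm))

end Vale.Agent.P200.U
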