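import Mathlib

/-!
Powers of linear forms span (copy of the first part of `W/Choose.lean` with Mathlib as the only
import).
-/

namespace Vale.Agent.P200.U

open MvPolynomial Module

variable {K : Type*} [Field K] {n : ℕ}

/-- coefficient extraction -/
theorem w14_coeff_mem [Infinite K] {V : Type*} [AddCommGroup V] [Module K V] (P : Submodule K V)
    (N : ℕ) (v : ℕ → V) (h : ∀ t : K, ∑ j ∈ Finset.range N, t ^ j • v j ∈ P) (j : ℕ)
    (hj : j < N) : v j ∈ P := by
  rw [← Submodule.Quotient.mk_eq_zero, ← Module.forall_dual_apply_eq_zero_iff K]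
  intro φ
  set q : Polynomial K := ∑ i ∈ Finset.range N, Polynomial.monomial i (φ (Submodule.Quotient.mk (v i)))
    with hq
  have hq0 : q = 0 := by
    refine Polynomial.funext fun t => ?_
    rw [hq, Polynomial.eval_finsetSum, Polynomial.eval_zero]
    have h1 : φ (Submodule.Quotient.mk (p := P) (∑ j ∈ Finset.range N, t ^ j • v j)) = 0 := by
      rw [(Submodule.Quotient.mk_eq_zero P).2 (h t), map_zero]
    rw [← h1, ← Submodule.mkQ_apply, map_sum, map_sum]
    refine Finset.sum_congr rfl fun i _ => ?_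
    rw [Polynomial.eval_monomial, map_smul, map_smul, smul_eq_mul, mul_comm, Submodule.mkQ_apply]
  have h2 : q.coeff j = φ (Submodule.Quotient.mk (v j)) := by
    rw [hq, Polynomial.finsetSum_coeff, Finset.sum_eq_single j]
    · rw [Polynomial.coeff_monomial, if_pos rfl]
    · intro i _ hi
      rw [Polynomial.coeff_monomial, if_neg hi]
    · intro h
      exact absurd (Finset.mem_range.2 hj) h
  rw [← h2, hq0, Polynomial.coeff_zero]

/-- the span of the powers of linear forms -/
noncomputable def w14_pow (K : Type*) [Field K] (n b : ℕ) : Submodule K (MvPolynomial (Fin n) K) :=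
  Submodule.span K {g | ∃ l : MvPolynomial (Fin n) K, l.IsHomogeneous 1 ∧ g = l ^ b}

theorem w14_mul_mem [Infinite K] {b : ℕ} (hb : ((b + 1 : ℕ) : K) ≠ 0)
    {l m : MvPolynomial (Fin n) K} (hl : l.IsHomogeneous 1) (hm : m.IsHomogeneous 1) :
    l ^ b * m ∈ w14_pow K n (b + 1) := by
  have h1 := w14_coeff_mem (w14_pow K n (b + 1)) (b + 2)
    (fun j => m ^ j * l ^ (b + 1 - j) * ((b + 1).choose j : MvPolynomial (Fin n) K)) (fun t => by
      have h2 : ∑ j ∈ Finset.range (b + 2), t ^ j • (m ^ j * l ^ (b + 1 - j) *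
          ((b + 1).choose j : MvPolynomial (Fin n) K)) = (C t * m + l) ^ (b + 1) := by
        rw [add_pow]
        refine Finset.sum_congr rfl fun j _ => ?_
        rw [smul_eq_C_mul, map_pow, mul_pow]
        ring
      rw [h2]
      refine Submodule.subset_span ⟨_, IsHomogeneous.add ?_ hl, rfl⟩
      have h3 := (isHomogeneous_C (Fin n) t).mul hm
      rwa [zero_add] at h3) 1 (by omega)
  simp only [pow_one, Nat.add_sub_cancel, Nat.choose_one_right] at h1
  have h2 := (w14_pow K n (b + 1)).smul_mem (((b + 1 : ℕ) : K)⁻¹) h1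
  have h3 : (((b + 1 : ℕ) : K)⁻¹) • (m * l ^ b * ((b + 1 : ℕ) : MvPolynomial (Fin n) K)) =
      l ^ b * m := by
    have h4 : ((b + 1 : ℕ) : MvPolynomial (Fin n) K) = C ((b + 1 : ℕ) : K) := by
      rw [map_natCast]
    rw [h4, smul_eq_C_mul]
    have h5 : (C (((b + 1 : ℕ) : K)⁻¹) : MvPolynomial (Fin n) K) * C ((b + 1 : ℕ) : K) = 1 := by
      rw [← map_mul, inv_mul_cancel₀ hb, map_one]
    linear_combination (m * l ^ b) * h5
  rwa [h3] at h2

theorem w14_span [Infinite K] (b : ℕ) (hbK : (b.factorial : K) ≠ 0) :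
    homogeneousSubmodule (Fin n) K b = w14_pow K n b := by
  induction b with
  | zero =>
    apply le_antisymm
    · intro g hg
      have h1 : g = C (coeff 0 g) := by
        exact (totalDegree_eq_zero_iff_eq_C).1 (Nat.le_zero.1 (IsHomogeneous.totalDegree_le hg))
      rw [h1, C_eq_smul_one]
      exact Submodule.smul_mem _ _ (Submodule.subset_span ⟨0, isHomogeneous_zero _ _ _, by
        rw [pow_zero]⟩)
    · refine Submodule.span_le.2 ?_
      rintro _ ⟨l, -, rfl⟩
      rw [pow_zero]
      exact isHomogeneous_one _ _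
  | succ b ih =>
    have hb1 : ((b + 1 : ℕ) : K) ≠ 0 := by
      intro h
      apply hbK
      rw [Nat.factorial_succ, Nat.cast_mul, h, zero_mul]
    have hb2 : (b.factorial : K) ≠ 0 := by
      intro h
      apply hbK
      rw [Nat.factorial_succ, Nat.cast_mul, h, mul_zero]
    apply le_antisymm
    · rw [← homogeneousSubmodule_one_pow, pow_succ, homogeneousSubmodule_one_pow, ih hb2,
        Submodule.mul_le]
      intro g hg m hm
      refine Submodule.span_induction (p := fun g _ => g * m ∈ w14_pow K n (b + 1)) ?_ ?_ ?_ ?_ hg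
      · rintro _ ⟨l, hl, rfl⟩
        exact w14_mul_mem hb1 hl hm
      · rw [zero_mul]
        exact zero_mem _
      · intro x y _ _ hx hy
        rw [add_mul]
        exact add_mem hx hy
      · intro c x _ hx
        rw [smul_mul_assoc]
        exact Submodule.smul_mem _ _ hx
    · refine Submodule.span_le.2 ?_
      rintro _ ⟨l, hl, rfl⟩
      have h1 := hl.pow (b + 1)
      rwa [one_mul] at h1

theorem exists_powers_span [Infinite K] {b : ℕ} (hb : 1 ≤ b) (hbK : (b.factorial : K) ≠ 0) :
    ∃ (s : ℕ) (l : Fin s → MvPolynomial (Fin n) K), (∀ i, (l i).IsHomogeneous 1) ∧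
      homogeneousSubmodule (Fin n) K b = Submodule.span K (Set.range fun i => l i ^ b) := by
  have h1 := w14_span (n := n) b hbK
  have hfg : (w14_pow K n b).FG := by
    rw [← h1]
    exact homogeneousSubmodule_fg _ _ b
  obtain ⟨t, ht1, ht2⟩ := (Submodule.fg_span_iff_fg_span_finset_subset _).1 hfg
  choose! l hl hl2 using fun g (hg : g ∈ (t : Set (MvPolynomial (Fin n) K))) => ht1 hg
  refine ⟨t.card, fun i => l (t.equivFin.symm i), fun i => hl _ (t.equivFin.symm i).2, ?_⟩
  rw [h1, w14_pow, ht2]
  congr 1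
  ext g
  constructor
  · intro hg
    exact ⟨t.equivFin ⟨g, hg⟩, by
      simp only [Equiv.symm_apply_apply]
      exact (hl2 g hg).symm⟩
  · rintro ⟨i, rfl⟩
    simp only
    rw [← hl2 _ (t.equivFin.symm i).2]
    exact (t.equivFin.symm i).2

/-- the space of coefficients → combinations of the products `A j m` -/
noncomputable def w14_lin {R N : ℕ} (b : ℕ) (A : Fin R → ℕ → MvPolynomial (Fin N) K) :
    (Fin R → ℕ → K) →ₗ[K] MvPolynomial (Fin N) K where
  toFun u := ∑ j, ∑ m ∈ Finset.range (b + 1), C (u j m) * A j m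
  map_add' u v := by
    rw [← Finset.sum_add_distrib]
    refine Finset.sum_congr rfl fun j _ => ?_
    rw [← Finset.sum_add_distrib]
    refine Finset.sum_congr rfl fun m _ => ?_
    rw [Pi.add_apply, Pi.add_apply, map_add, add_mul]
  map_smul' c u := by
    rw [RingHom.id_apply, Finset.smul_sum]
    refine Finset.sum_congr rfl fun j _ => ?_
    rw [Finset.smul_sum]
    refine Finset.sum_congr rfl fun m _ => ?_
    rw [Pi.smul_apply, Pi.smul_apply, smul_eq_mul, map_mul, smul_eq_C_mul, mul_assoc]

theorem w14_lin_apply {R N : ℕ} (b : ℕ) (A : Fin R → ℕ → MvPolynomial (Fin N) K)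
    (u : Fin R → ℕ → K) :
    w14_lin b A u = ∑ j, ∑ m ∈ Finset.range (b + 1), C (u j m) * A j m := rfl

theorem w14_lin_single {R N : ℕ} (b : ℕ) (A : Fin R → ℕ → MvPolynomial (Fin N) K) (j : Fin R)
    {m : ℕ} (hm : m ≤ b) : w14_lin b A (Pi.single j (Pi.single m 1)) = A j m := by
  rw [w14_lin_apply, Finset.sum_eq_single j]
  · rw [Finset.sum_eq_single m]
    · rw [Pi.single_eq_same, Pi.single_eq_same, map_one, one_mul]
    · intro i _ hi
      rw [Pi.single_eq_same, Pi.single_eq_of_ne hi, map_zero, zero_mul]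
    · intro h
      exact absurd (Finset.mem_range.2 (by omega)) h
  · intro i _ hi
    refine Finset.sum_eq_zero fun m' _ => ?_
    rw [Pi.single_eq_of_ne hi, Pi.zero_apply, map_zero, zero_mul]
  · intro h
    exact absurd (Finset.mem_univ _) h

end Vale.Agent.P200.U
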